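import Vale.Agent.P280.H83.Api1

/-! P280, plan N: brackets, the `sl₂` steps, coefficients with respect to independent fields. -/

open DirectSum Vale.Agent.P280.T Vale.Agent.P280.N

namespace Vale.Agent.P280.N

set_option linter.unusedSectionVars false

section
variable {R : Type} [CommRing R] [IsDomain R] [Algebra ℂ R]
variable {q : R →ₐ[ℂ] ℂ} {x y : FractionRing R} {c c' : ℂ} {v w : VF R}

/-! ### the bracket (`rw [lie_sub]` does not fire on `VF R`; use these) -/

theorem vlie_sub (a b c : VF R) : ⁅a, b - c⁆ = ⁅a, b⁆ - ⁅a, c⁆ := lie_sub a b c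

theorem vlie_add (a b c : VF R) : ⁅a, b + c⁆ = ⁅a, b⁆ + ⁅a, c⁆ := lie_add a b c

theorem vlie_neg (a b : VF R) : ⁅a, -b⁆ = -⁅a, b⁆ := lie_neg a b

theorem vlie_zero (a : VF R) : ⁅a, (0 : VF R)⁆ = 0 := lie_zero a

theorem vsub_lie (a b c : VF R) : ⁅a - b, c⁆ = ⁅a, c⁆ - ⁅b, c⁆ := sub_lie a b c

theorem vadd_lie (a b c : VF R) : ⁅a + b, c⁆ = ⁅a, c⁆ + ⁅b, c⁆ := add_lie a b c

theorem vneg_lie (a b : VF R) : ⁅-a, b⁆ = -⁅a, b⁆ := neg_lie a b

theorem vlie_lie (a b c : VF R) : ⁅⁅a, b⁆, c⁆ = ⁅a, ⁅b, c⁆⁆ - ⁅b, ⁅a, c⁆⁆ := lie_lie a b c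

theorem vlie_skew (a b : VF R) : -⁅b, a⁆ = ⁅a, b⁆ := lie_skew a b

theorem vsmul_lie (t : ℂ) (a b : VF R) : ⁅t • a, b⁆ = t • ⁅a, b⁆ := smul_lie t a b

theorem vlie_smul (t : ℂ) (a b : VF R) : ⁅a, t • b⁆ = t • ⁅a, b⁆ := lie_smul t a b

theorem vlie_apply (a b : VF R) (x : FractionRing R) : ⁅a, b⁆ x = a (b x) - b (a x) :=
  Derivation.commutator_apply x

theorem vsmul_sub (x : FractionRing R) (a b : VF R) : x • (a - b) = x • a - x • b :=
  smul_sub x a b

theorem vsmul_add (x : FractionRing R) (a b : VF R) : x • (a + b) = x • a + x • b :=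
  smul_add x a b

theorem vlie_sum {ι : Type*} (S : Finset ι) (a : VF R) (f : ι → VF R) :
    ⁅a, ∑ i ∈ S, f i⁆ = ∑ i ∈ S, ⁅a, f i⁆ := by
  classical
  induction S using Finset.induction_on with
  | empty => rw [Finset.sum_empty, Finset.sum_empty, vlie_zero]
  | insert b S hb ih => rw [Finset.sum_insert hb, Finset.sum_insert hb, vlie_add, ih]

theorem sum_apply_vf {ι : Type*} (S : Finset ι) (f : ι → VF R) (x : FractionRing R) :
    (∑ i ∈ S, f i) x = ∑ i ∈ S, f i x := by
  classical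
  induction S using Finset.induction_on with
  | empty => rw [Finset.sum_empty, Finset.sum_empty, Derivation.zero_apply]
  | insert b S hb ih => rw [Finset.sum_insert hb, Finset.sum_insert hb, Derivation.add_apply, ih]

/-- `ad w` preserves the span as soon as it preserves the generators -/
theorem span_stable {W : Set (VF R)} {w : VF R}
    (h : ∀ u ∈ W, ⁅w, u⁆ ∈ Submodule.span (FractionRing R) W) :
    ∀ u ∈ Submodule.span (FractionRing R) W, ⁅w, u⁆ ∈ Submodule.span (FractionRing R) W := by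
  intro u hu
  induction hu using Submodule.span_induction with
  | mem u hu => exact h u hu
  | zero => rw [vlie_zero]; exact Submodule.zero_mem _
  | add x y _ _ hx hy => rw [vlie_add]; exact Submodule.add_mem _ hx hy
  | smul g u hu ih =>
    rw [lie_smul_vf]
    exact Submodule.add_mem _ (Submodule.smul_mem _ _ hu) (Submodule.smul_mem _ _ ih)

/-- the bracket with a regular field that preserves the span -/
theorem RM.bracket {W : Set (VF R)} (hv : RM q W v) (hw : RgV q w)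
    (hW : ∀ u ∈ Submodule.span (FractionRing R) W, ⁅w, u⁆ ∈ Submodule.span (FractionRing R) W) :
    RM q W ⁅w, v⁆ := by
  obtain ⟨u, hu, h⟩ := hv
  refine ⟨⁅w, u⁆, hW u hu, ?_⟩
  rw [← vlie_sub]
  exact hw.lie h

/-- `v = g w + z + ρ`, `z` in the span, `ρ` regular -/
theorem rm_insert' {W : Set (VF R)} {u : VF R} (h : RM q (insert u W) v) :
    ∃ (g : FractionRing R), ∃ z ∈ Submodule.span (FractionRing R) W, ∃ ρ : VF R, RgV q ρ ∧
      v = g • u + z + ρ := by
  obtain ⟨z, hz, h⟩ := h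
  obtain ⟨g, z', hz', e⟩ := Submodule.mem_span_insert.mp hz
  exact ⟨g, z', hz', v - z, h, by rw [e]; abel⟩

/-- uniform denominator -/
theorem rgV_iff_unif [Algebra.FiniteType ℂ R] :
    RgV q v ↔ ∃ s : R, q s ≠ 0 ∧ ∀ h : R, ∃ a : R, iK s * v (iK h) = iK a := by
  constructor
  · intro hv
    classical
    obtain ⟨S, hS⟩ := Algebra.FiniteType.out (R := ℂ) (A := R)
    choose a s hs e using hv
    refine ⟨∏ h ∈ S, s h, ?_, ?_⟩
    · rw [map_prod]
      exact Finset.prod_ne_zero_iff.mpr fun h _ => hs h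
    · have key : ∀ h ∈ Algebra.adjoin ℂ (S : Set R),
          ∃ a : R, iK (∏ h ∈ S, s h) * v (iK h) = iK a := by
        intro h hh
        induction hh using Algebra.adjoin_induction with
        | mem x hx =>
          have hx' : x ∈ S := hx
          refine ⟨(∏ h ∈ S.erase x, s h) * a x, ?_⟩
          rw [← Finset.mul_prod_erase S s hx']
          simp only [iK, map_mul] at e ⊢
          rw [← e]
          ring
        | algebraMap c =>
          refine ⟨0, ?_⟩
          have : iK (algebraMap ℂ R c) = algebraMap ℂ (FractionRing R) c :=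
            (IsScalarTower.algebraMap_apply ℂ R (FractionRing R) c).symm
          rw [this, Derivation.map_algebraMap, mul_zero]
          exact (map_zero _).symm
        | add x y _ _ hx hy =>
          obtain ⟨b, hb⟩ := hx
          obtain ⟨d, hd⟩ := hy
          refine ⟨b + d, ?_⟩
          simp only [iK, map_add] at hb hd ⊢
          rw [← hb, ← hd]
          ring
        | mul x y _ _ hx hy =>
          obtain ⟨b, hb⟩ := hx
          obtain ⟨d, hd⟩ := hy
          refine ⟨x * d + y * b, ?_⟩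
          simp only [iK, map_add, map_mul, Derivation.leibniz, smul_eq_mul] at hb hd ⊢
          rw [← hb, ← hd]
          ring
      intro h
      apply key
      rw [hS]
      exact Algebra.mem_top
  · rintro ⟨s, hs, hv⟩ h
    obtain ⟨a, ha⟩ := hv h
    exact ⟨a, s, hs, ha⟩

/-! ### the `sl₂` steps -/

/-- `F v = 0`, `H v = 0`, `E² v = 0` modulo `W` give `E v = 0` modulo `W` -/
theorem sl2_step {W : Submodule (FractionRing R) (VF R)} {E F H : VF R} {c : ℂ} (hc : c ≠ 0)
    (hEF : ⁅E, F⁆ = H) (hHE : ⁅H, E⁆ = c • E) (hWE : ∀ u ∈ W, ⁅E, u⁆ ∈ W)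
    (hWF : ∀ u ∈ W, ⁅F, u⁆ ∈ W) {v : VF R} (hF : ⁅F, v⁆ ∈ W) (hH : ⁅H, v⁆ ∈ W)
    (hE : ⁅E, ⁅E, v⁆⁆ ∈ W) : ⁅E, v⁆ ∈ W := by
  have h1 : ⁅F, ⁅E, v⁆⁆ ∈ W := by
    have e : ⁅F, ⁅E, v⁆⁆ = ⁅E, ⁅F, v⁆⁆ - ⁅H, v⁆ := by
      rw [← hEF, vlie_lie]
      abel
    rw [e]
    exact W.sub_mem (hWE _ hF) hH
  have h2 : ⁅H, ⁅E, v⁆⁆ ∈ W := by
    have e : ⁅H, ⁅E, v⁆⁆ = ⁅E, ⁅F, ⁅E, v⁆⁆⁆ - ⁅F, ⁅E, ⁅E, v⁆⁆⁆ := by
      rw [← hEF, vlie_lie]
    rw [e]
    exact W.sub_mem (hWE _ h1) (hWF _ hE)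
  have h3 : ⁅H, ⁅E, v⁆⁆ = c • ⁅E, v⁆ + ⁅E, ⁅H, v⁆⁆ := by
    have := vlie_lie H E v
    rw [hHE, vsmul_lie] at this
    rw [this]
    abel
  have h4 : c • ⁅E, v⁆ ∈ W := by
    have : c • ⁅E, v⁆ = ⁅H, ⁅E, v⁆⁆ - ⁅E, ⁅H, v⁆⁆ := by rw [h3]; abel
    rw [this]
    exact W.sub_mem h2 (hWE _ hH)
  have h5 : c⁻¹ • (c • ⁅E, v⁆) ∈ W := by
    have : c⁻¹ • (c • ⁅E, v⁆) = (algebraMap ℂ (FractionRing R) c⁻¹) • (c • ⁅E, v⁆) := by
      rw [algebraMap_smul]
    rw [this]
    exact W.smul_mem _ h4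
  rwa [smul_smul, inv_mul_cancel₀ hc, one_smul] at h5

/-- `F v = 0`, `H v = 0` and `E v = δ w` modulo `W`, with `w` and `F w` independent modulo `W`,
give `E v = 0` modulo `W` -/
theorem sl2_step' {W : Submodule (FractionRing R) (VF R)} {E F H w : VF R}
    (hEF : ⁅E, F⁆ = H) (hWE : ∀ u ∈ W, ⁅E, u⁆ ∈ W) (hWF : ∀ u ∈ W, ⁅F, u⁆ ∈ W)
    (hind : ∀ a b : FractionRing R, a • w + b • ⁅F, w⁆ ∈ W → b = 0)
    {v : VF R} (hF : ⁅F, v⁆ ∈ W) (hH : ⁅H, v⁆ ∈ W) {δ : FractionRing R}
    (hE : ⁅E, v⁆ - δ • w ∈ W) : δ = 0 ∧ ⁅E, v⁆ ∈ W := by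
  have h1 : ⁅F, ⁅E, v⁆⁆ ∈ W := by
    have e : ⁅F, ⁅E, v⁆⁆ = ⁅E, ⁅F, v⁆⁆ - ⁅H, v⁆ := by
      rw [← hEF, vlie_lie]
      abel
    rw [e]
    exact W.sub_mem (hWE _ hF) hH
  have h2 : F δ • w + δ • ⁅F, w⁆ ∈ W := by
    have e : F δ • w + δ • ⁅F, w⁆ = ⁅F, ⁅E, v⁆⁆ - ⁅F, ⁅E, v⁆ - δ • w⁆ := by
      rw [vlie_sub, lie_smul_vf]
      abel
    rw [e]
    exact W.sub_mem h1 (hWF _ hE)
  have h3 : δ = 0 := hind _ _ h2
  refine ⟨h3, ?_⟩
  rwa [h3, zero_smul, sub_zero] at hE

end

section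
variable {r : ℕ} {R : Type} [CommRing R] [IsDomain R] [Algebra ℂ R]
variable {𝒜 : ℕ × (Fin r → ℤ) → Submodule ℂ R} [GradedAlgebra 𝒜]

/-- a homogeneous rational function that lies in `R` is homogeneous in `R` -/
private theorem HK.mem {d : ℕ} {m : Fin r → ℤ} {a : R} (h : HK 𝒜 d m (iK a)) : a ∈ 𝒜 (d, m) := by
  obtain ⟨a', b', n, n', f, hf, g, hg, hg0, e, hd, hm⟩ := h
  have e' : g * a = f := by
    apply iK_inj
    rw [iK_mul]
    exact e
  have hidx : ((b', n') : ℕ × (Fin r → ℤ)) + (d, m) = (a', n) := by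
    rw [Prod.mk_add_mk, Prod.mk.injEq]
    constructor
    · omega
    · rw [hm]; abel
  have key : ∀ i : ℕ × (Fin r → ℤ), i ≠ (d, m) → (decompose 𝒜 a i : R) = 0 := by
    intro i hi
    have h1 : (decompose 𝒜 (g * a) ((b', n') + i) : R) = g * decompose 𝒜 a i :=
      coe_decompose_mul_add_of_left_mem 𝒜 hg
    rw [e', decompose_of_mem_ne 𝒜 hf] at h1
    · exact (mul_eq_zero.mp h1.symm).resolve_left hg0
    · rw [← hidx]
      intro h2
      exact hi (add_left_cancel h2).symm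
  have h3 : (decompose 𝒜 a (d, m) : R) = a := by
    classical
    have h4 := sum_support_decompose 𝒜 a
    have h5 : ∑ i ∈ (decompose 𝒜 a).support, (decompose 𝒜 a i : R) = decompose 𝒜 a (d, m) := by
      rw [Finset.sum_eq_single (d, m)]
      · intro i _ hi
        exact key i hi
      · intro h6
        rw [DFinsupp.notMem_support_iff] at h6
        rw [h6]
        rfl
    rw [← h5]
    exact h4
  rw [← h3]
  exact (decompose 𝒜 a (d, m)).2

variable {y : FP 𝒜} {ι : Type} {w : ι → VF R} {χ : ι → Fin r → ℤ}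

/-- functions that are coordinates for the independent fields -/
theorem Ind.exists_coord (H : Ind y w χ) : ∃ (dd : ι → ℕ) (h : ι → R) (A : ι → ι → R),
    (∀ j, h j ∈ 𝒜 (dd j, dd j • y.ν + χ j)) ∧ (∀ i j, w i (iK (h j)) = iK (A i j)) ∧
    (∀ i j, A i j ∈ 𝒜 (dd j, dd j • y.ν + χ j - χ i)) ∧ (∀ i j, i ≠ j → y.q (A i j) = 0) ∧
    ∀ j, y.q (A j j) ≠ 0 := by
  have h1 : ∀ j, ∃ (d : ℕ) (h : R), h ∈ 𝒜 (d, d • y.ν + χ j) ∧
      ∀ a : R, w j (iK h) = iK a → y.q a ≠ 0 := by
    intro j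
    by_contra hcon
    push Not at hcon
    apply H.ne j
    obtain ⟨t, ht⟩ := (H.glob j).rgV (q := y.q) |>.val
    have ht0 : t = 0 := by
      ext a
      have h2 : ∀ (i : ℕ × (Fin r → ℤ)), t (decompose 𝒜 a i : R) = 0 := by
        intro i
        by_contra hne
        obtain ⟨b, hb⟩ := H.glob j (decompose 𝒜 a i : R)
        have h3 : b ∈ 𝒜 (i.1, i.2 - χ j) := by
          apply HK.mem
          rw [← hb]
          exact H.hv j i.1 i.2 _ (decompose 𝒜 a i).2
        have h4 : y.q b = t (decompose 𝒜 a i : R) := by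
          have h5 := ht (decompose 𝒜 a i : R)
          rw [hb] at h5
          exact (Val.iK b).unique h5
        have h6 := y.fix i.1 (i.2 - χ j) b h3 (by rw [h4]; exact hne)
        have h7 : i.2 = i.1 • y.ν + χ j := by rw [← h6]; abel
        obtain ⟨a', ha', hqa'⟩ := hcon i.1 (decompose 𝒜 a i : R) (by
          have := (decompose 𝒜 a i).2
          rw [← h7]
          exact this)
        have h8 : b = a' := iK_inj (hb.symm.trans ha')
        rw [← h8, h4] at hqa'
        exact hne hqa'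
      classical
      have h4 := sum_support_decompose 𝒜 a
      rw [← h4, map_sum, LinearMap.zero_apply]
      exact Finset.sum_eq_zero fun i _ => h2 i
    rwa [ht0] at ht
  choose dd h hh hq using h1
  choose A hA using fun i j => H.glob i (h j)
  have hA' : ∀ i j, A i j ∈ 𝒜 (dd j, dd j • y.ν + χ j - χ i) := by
    intro i j
    apply HK.mem
    rw [← hA]
    exact H.hv i _ _ _ (hh j)
  refine ⟨dd, h, A, hh, hA, hA', ?_, fun j => hq j _ (hA j j)⟩
  intro i j hij
  by_contra hne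
  have h6 := y.fix _ _ _ (hA' i j) hne
  apply hij
  apply H.inj
  have h7 : dd j • y.ν + χ j - χ i - dd j • y.ν = 0 := by rw [h6]; abel
  have h8 : χ j - χ i = 0 := by rw [← h7]; abel
  exact (sub_eq_zero.mp h8).symm

/-- Cramer: the coefficients of a combination of the independent fields -/
theorem Ind.cramer [Fintype ι] (H : Ind y w χ) : ∃ (D : R) (h : ι → R) (B : ι → ι → R),
    y.q D ≠ 0 ∧ ∀ (g : ι → FractionRing R) (i : ι),
      iK D * g i = ∑ j, (∑ k, g k • w k) (iK (h j)) * iK (B j i) := by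
  classical
  obtain ⟨dd, h, A, -, hA, -, hA0, hA1⟩ := H.exists_coord
  let M : Matrix ι ι R := Matrix.of A
  refine ⟨M.det, h, fun j i => M.adjugate j i, ?_, ?_⟩
  · have h1 : y.q M.det = ∏ j, y.q (A j j) := by
      have h2 : y.q M.det = (Matrix.of fun i j => y.q (A i j)).det := by
        rw [AlgHom.map_det]
        rfl
      have h3 : (Matrix.of fun i j => y.q (A i j)) = Matrix.diagonal fun j => y.q (A j j) := by
        ext i j
        by_cases hij : i = j
        · rw [hij, Matrix.diagonal_apply_eq, Matrix.of_apply]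
        · rw [Matrix.diagonal_apply_ne _ hij, Matrix.of_apply, hA0 i j hij]
      rw [h2, h3, Matrix.det_diagonal]
    rw [h1]
    exact Finset.prod_ne_zero_iff.mpr fun j _ => hA1 j
  · intro g i
    have h4 : ∀ j, (∑ k, g k • w k) (iK (h j)) = ∑ k, g k * iK (A k j) := by
      intro j
      rw [sum_apply_vf]
      refine Finset.sum_congr rfl fun k _ => ?_
      rw [Derivation.smul_apply, hA, smul_eq_mul]
    have h5 : ∀ k, ∑ j, iK (A k j) * iK (M.adjugate j i) = if k = i then iK M.det else 0 := by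
      intro k
      have h6 := congrFun (congrFun (Matrix.mul_adjugate M) k) i
      rw [Matrix.mul_apply, Matrix.smul_apply, Matrix.one_apply] at h6
      have h7 : ∑ j, iK (A k j) * iK (M.adjugate j i) = iK (∑ j, M k j * M.adjugate j i) := by
        rw [iK_sum]
        exact Finset.sum_congr rfl fun j _ => (iK_mul _ _).symm
      rw [h7, h6]
      split_ifs
      · rw [smul_eq_mul, mul_one]
      · rw [smul_zero, iK_zero]
    simp_rw [h4, Finset.sum_mul]
    rw [Finset.sum_comm]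
    simp_rw [mul_assoc, ← Finset.mul_sum, h5]
    simp [mul_comm]

/-- the coefficients of a regular combination of the independent fields are regular -/
theorem Ind.coef [Fintype ι] (H : Ind y w χ) {g : ι → FractionRing R}
    (h : RgV y.q (∑ k, g k • w k)) (i : ι) : Rg y.q (g i) := by
  obtain ⟨D, hh, B, hD, hB⟩ := H.cramer
  apply Rg.of_mul hD
  rw [hB g i]
  exact Rg.sum _ fun j _ => (h _).mul (Rg.iK _)

theorem Ind.coef_zero [Fintype ι] (H : Ind y w χ) {g : ι → FractionRing R}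
    (h : ∑ k, g k • w k = 0) (i : ι) : g i = 0 := by
  obtain ⟨D, hh, B, hD, hB⟩ := H.cramer
  have h1 := hB g i
  rw [h] at h1
  simp only [Derivation.zero_apply, zero_mul, Finset.sum_const_zero] at h1
  exact (mul_eq_zero.mp h1).resolve_left (iK_ne_zero (ne_zero_of_q hD))

theorem Ind.linearIndependent [Fintype ι] (H : Ind y w χ) :
    LinearIndependent (FractionRing R) w := by
  rw [Fintype.linearIndependent_iff]
  intro g hg i
  exact H.coef_zero hg i

theorem mem_span_image_iff [Fintype ι] {T : Set ι} {z : VF R} :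
    z ∈ Submodule.span (FractionRing R) (w '' T) ↔
      ∃ g : ι → FractionRing R, (∀ i, i ∉ T → g i = 0) ∧ z = ∑ i, g i • w i := by
  classical
  constructor
  · intro hz
    induction hz using Submodule.span_induction with
    | mem u hu =>
      obtain ⟨i, hi, rfl⟩ := hu
      refine ⟨Pi.single i 1, fun j hj => ?_, ?_⟩
      · rw [Pi.single_apply, if_neg]
        rintro rfl
        exact hj hi
      · rw [Finset.sum_eq_single i]
        · rw [Pi.single_eq_same, one_smul]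
        · intro j _ hj
          rw [Pi.single_eq_of_ne hj, zero_smul]
        · intro h; exact absurd (Finset.mem_univ i) h
    | zero => exact ⟨0, fun _ _ => rfl, by simp⟩
    | add x y _ _ hx hy =>
      obtain ⟨g, hg, rfl⟩ := hx
      obtain ⟨g', hg', rfl⟩ := hy
      refine ⟨g + g', fun i hi => by rw [Pi.add_apply, hg i hi, hg' i hi, add_zero], ?_⟩
      rw [← Finset.sum_add_distrib]
      exact Finset.sum_congr rfl fun i _ => by rw [Pi.add_apply, add_smul]
    | smul a u _ hu =>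
      obtain ⟨g, hg, rfl⟩ := hu
      refine ⟨a • g, fun i hi => by rw [Pi.smul_apply, hg i hi, smul_zero], ?_⟩
      rw [Finset.smul_sum]
      exact Finset.sum_congr rfl fun i _ => by rw [Pi.smul_apply, smul_eq_mul, mul_smul]
  · rintro ⟨g, hg, rfl⟩
    refine Submodule.sum_mem _ fun i _ => ?_
    by_cases hi : i ∈ T
    · exact Submodule.smul_mem _ _ (Submodule.subset_span ⟨i, hi, rfl⟩)
    · rw [hg i hi, zero_smul]
      exact Submodule.zero_mem _

/-- the coefficients outside `T` of a combination that is regular modulo the `w i`, `i ∈ T` -/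
theorem Ind.coef_rm [Fintype ι] (H : Ind y w χ) {T : Set ι} {g : ι → FractionRing R}
    (h : RM y.q (w '' T) (∑ k, g k • w k)) {i : ι} (hi : i ∉ T) : Rg y.q (g i) := by
  obtain ⟨z, hz, h⟩ := h
  obtain ⟨g', hg', rfl⟩ := mem_span_image_iff.mp hz
  have h1 : ∑ k, g k • w k - ∑ k, g' k • w k = ∑ k, (g k - g' k) • w k := by
    rw [← Finset.sum_sub_distrib]
    exact Finset.sum_congr rfl fun k _ => (sub_smul _ _ _).symm
  rw [h1] at h
  have h2 := H.coef h i
  rwa [hg' i hi, sub_zero] at h2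

end

end Vale.Agent.P280.N
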