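import Vale.Agent.P280.N2.Defs
import Vale.Agent.P280.N2.Rel
import Vale.Agent.P280.N2.M1
import Vale.Agent.P280.N.C03
import Vale.Agent.P280.N.C05
import Vale.Agent.P280.H399.WallPole
import Vale.Agent.P280.H448.PolarFun

/-! P280, stage 2, leaf (b): weights and signs. -/

open DirectSum Vale.Agent.P280.T Vale.Agent.P280.H127 Vale.Agent.P280.N

namespace Vale.Agent.P280.H981

open Vale.Agent.P280.N.H989 Vale.Agent.P280.N2

variable {r : ℕ} {R : Type} [CommRing R] [IsDomain R] [Algebra ℂ R]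
  {𝒜 : ℕ × (Fin r → ℤ) → Submodule ℂ R} [GradedAlgebra 𝒜]
  {N : ℤ} {n : ℕ} {f : Fin (n + 1) → Fin r → ℤ}
  {β : Fin (n + 1) → Fin (n + 1) → ((Fin r → ℤ) →+ ℤ)} {E F : Fin (n + 1) → Fin (n + 1) → VF R}
  {c : (Fin r → ℤ) →+ ℤ}

omit [GradedAlgebra 𝒜] in
theorem n01 (hA : AC 𝒜 N n f β E F) : (0 : Fin (n + 1)) ≠ 1 := fun h => by
  have v1 := one_val hA.n2
  rw [Fin.ext_iff] at h
  have v0 : ((0 : Fin (n + 1)) : ℕ) = 0 := rfl
  omega

omit [GradedAlgebra 𝒜] in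
theorem n1L (hA : AC 𝒜 N n f β E F) : (1 : Fin (n + 1)) ≠ Fin.last n := fun h => by
  have v1 := one_val hA.n2
  have hn := hA.n2
  rw [Fin.ext_iff] at h
  have vL : ((Fin.last n : Fin (n + 1)) : ℕ) = n := rfl
  omega

omit [GradedAlgebra 𝒜] in
theorem n0L (hA : AC 𝒜 N n f β E F) : (0 : Fin (n + 1)) ≠ Fin.last n := fun h => by
  have hn := hA.n2
  rw [Fin.ext_iff] at h
  have vL : ((Fin.last n : Fin (n + 1)) : ℕ) = n := rfl
  have v0 : ((0 : Fin (n + 1)) : ℕ) = 0 := rfl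
  omega

omit [GradedAlgebra 𝒜] in
/-- The positive weights. -/
theorem pos_cases (hA : AC 𝒜 N n f β E F) (hv : NoVec 𝒜 n f) (hc : Ch2 𝒜 n f c)
    {μ : Fin r → ℤ} (hμ : Wt 𝒜 μ) (h : 0 < c μ) :
    (∀ i j, i ≠ j → β i j μ = 0) ∨ (∃ i j, i < j ∧ μ = f i - f j) ∨ μ = f 0 ∨ μ = f 1 ∨
      ∃ j : Fin (n + 1), 2 ≤ (j : ℕ) ∧ μ = -f j := by
  have hn := hA.n2
  have v1 := one_val hn
  have v0 : ((0 : Fin (n + 1)) : ℕ) = 0 := rfl
  have cp := hc.pos
  have c01 := hc.ord 0 1 (by rw [Fin.lt_def]; omega)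
  rcases hA.S μ hμ with h1 | ⟨i, j, hij, h1⟩ | ⟨i, h1 | h1⟩ | ⟨h3, i, j, hij, h1⟩
  · exact Or.inl h1
  · refine Or.inr (Or.inl ⟨i, j, ?_, h1⟩)
    rcases lt_trichotomy i j with h2 | h2 | h2
    · exact h2
    · exact absurd h2 hij
    · have h4 := hc.ord j i h2
      rw [h1, map_sub] at h
      omega
  · right; right
    by_cases h2 : 2 ≤ (i : ℕ)
    · have h4 := hc.neg i h2
      rw [h1] at h
      omega
    · by_cases h3 : (i : ℕ) = 0
      · left
        rw [h1]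
        congr 1
        exact Fin.ext (by omega)
      · right; left
        rw [h1]
        congr 1
        exact Fin.ext (by omega)
  · right; right; right; right
    refine ⟨i, ?_, h1⟩
    by_contra h2
    rw [h1, map_neg] at h
    by_cases h3 : (i : ℕ) = 0
    · have : i = 0 := Fin.ext (by omega)
      rw [this] at h
      omega
    · have : i = 1 := Fin.ext (by omega)
      rw [this] at h
      omega
  · exact absurd (h1 ▸ hμ) (hv h3 i j hij)

omit [GradedAlgebra 𝒜] in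
/-- The functional `A c + B β 0 1` has the sign of `c` except at `f 1`. -/
theorem signA (hA : AC 𝒜 N n f β E F) (hv : NoVec 𝒜 n f) (hc : Ch2 𝒜 n f c) {A B : ℤ}
    (h1 : 0 < A) (h2 : 0 ≤ B) (h3 : B * N < A * (c (f 1) + 1)) {μ : Fin r → ℤ} (hμ : Wt 𝒜 μ)
    (h : 0 < c μ) (hne : μ ≠ f 1) : 0 < A * c μ + B * β 0 1 μ := by
  have hn := hA.n2
  have hN := hA.N0
  have v1 := one_val hn
  have v0 : ((0 : Fin (n + 1)) : ℕ) = 0 := rfl
  have h01 := n01 hA
  have hbe := fun k => hA.be 0 1 k h01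
  have hBN : 0 ≤ B * N := mul_nonneg h2 hN.le
  have hAc : 0 < A * c μ := mul_pos h1 h
  rcases pos_cases hA hv hc hμ h with h4 | ⟨i, j, hij, h4⟩ | h4 | h4 | ⟨j, hj, h4⟩
  · rw [h4 0 1 h01, mul_zero, add_zero]
    exact hAc
  · have hj0 : j ≠ 0 := fun h => by
      rw [h] at hij
      exact absurd hij (Fin.not_lt_zero i)
    by_cases hi : i = 1
    · have hj1 : j ≠ 1 := fun h => by
        rw [h, hi] at hij
        exact lt_irrefl _ hij
      have hj2 : 2 ≤ (j : ℕ) := by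
        rw [hi, Fin.lt_def] at hij
        omega
      have hcj := hc.neg j hj2
      have e1 : c μ = c (f 1) - c (f j) := by rw [h4, map_sub, hi]
      have e2 : β 0 1 μ = -N := by
        rw [h4, map_sub, hbe, hbe, hi, if_neg (Ne.symm h01), if_pos rfl, if_neg hj0, if_neg hj1]
        ring
      rw [e1, e2]
      have h5 : A * (c (f 1) + 1) ≤ A * (c (f 1) - c (f j)) :=
        mul_le_mul_of_nonneg_left (by omega) h1.le
      nlinarith
    · have e2 : 0 ≤ β 0 1 μ := by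
        rw [h4, map_sub, hbe, hbe, if_neg hi, if_neg hj0]
        split_ifs <;> omega
      have := mul_nonneg h2 e2
      omega
  · have e2 : β 0 1 μ = N := by
      rw [h4, hbe, if_pos rfl, if_neg h01]
      ring
    rw [e2]
    omega
  · exact absurd h4 hne
  · have e2 : β 0 1 μ = 0 := by
      have hj0 : j ≠ 0 := fun h => by rw [h] at hj; omega
      have hj1 : j ≠ 1 := fun h => by rw [h] at hj; omega
      rw [h4, map_neg, hbe, if_neg hj0, if_neg hj1]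
      ring
    rw [e2, mul_zero, add_zero]
    exact hAc

/-- The functional `N c + c (f 1) β 0 1`, zero at `f 1`. -/
def lA (N : ℤ) (c : (Fin r → ℤ) →+ ℤ) (β : (Fin r → ℤ) →+ ℤ) (a : ℤ) : (Fin r → ℤ) →+ ℤ :=
  N • c + a • β

omit [CommRing R] [IsDomain R] [Algebra ℂ R] in
theorem lA_apply (N : ℤ) (c β : (Fin r → ℤ) →+ ℤ) (a : ℤ) (μ : Fin r → ℤ) :
    lA N c β a μ = N * c μ + a * β μ := rfl

omit [GradedAlgebra 𝒜] in
theorem lA_f1 (hA : AC 𝒜 N n f β E F) : lA N c (β 0 1) (c (f 1)) (f 1) = 0 := by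
  rw [lA_apply, hA.be 0 1 1 (n01 hA), if_neg (Ne.symm (n01 hA)), if_pos rfl]
  ring

omit [GradedAlgebra 𝒜] in
theorem lA_pos (hA : AC 𝒜 N n f β E F) (hv : NoVec 𝒜 n f) (hc : Ch2 𝒜 n f c) {μ : Fin r → ℤ}
    (hμ : Wt 𝒜 μ) (h : 0 < c μ) (hne : μ ≠ f 1) : 0 < lA N c (β 0 1) (c (f 1)) μ := by
  have hN := hA.N0
  have := hc.pos
  rw [lA_apply]
  exact signA hA hv hc hN this.le (by nlinarith) hμ h hne

end Vale.Agent.P280.H981
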