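import Vale.Agent.P280.H981.FB0
import Vale.Agent.P280.N.A19
import Vale.Agent.P280.N.A06
import Vale.Agent.P280.H144.TwoX

/-! P280, stage 2, leaf (b): the function `X` and its image. -/

open DirectSum Vale.Agent.P280.T Vale.Agent.P280.H127 Vale.Agent.P280.N

namespace Vale.Agent.P280.H981

open Vale.Agent.P280.N.H989 Vale.Agent.P280.N2

variable {r : ℕ} {R : Type} [CommRing R] [IsDomain R] [Algebra ℂ R]
  {𝒜 : ℕ × (Fin r → ℤ) → Submodule ℂ R} [GradedAlgebra 𝒜]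
  {N : ℤ} {n : ℕ} {f : Fin (n + 1) → Fin r → ℤ}
  {β : Fin (n + 1) → Fin (n + 1) → ((Fin r → ℤ) →+ ℤ)} {E F : Fin (n + 1) → Fin (n + 1) → VF R}
  {c : (Fin r → ℤ) →+ ℤ}

theorem pi_sub_p (H : Hyp 𝒜) (hA : AC 𝒜 N n f β E F) {p : FP 𝒜} (hp : Pos c p)
    {i j : Fin (n + 1)} (hij : i ≠ j) (hi : p.Pi (f i)) (hj : c (f j) < 0) :
    p.Pi (f i - f j) := by
  have hN := hA.N0
  by_contra hno
  have h1 := H155.nef_string0 H hN (H155.toRoot0 (hA.root j i hij.symm)) (hA.root j i hij.symm).int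
    p (a := f j - f i) (by rwa [neg_sub]) hi (by
      rw [hA.be j i i hij.symm, if_neg hij, if_pos rfl]
      omega)
  rw [add_sub_cancel] at h1
  have := hp _ h1
  omega

theorem pi_f0 (H : Hyp 𝒜) (hA : AC 𝒜 N n f β E F) (hc : Ch2 𝒜 n f c) {p : FP 𝒜} (hp : Pos c p)
    (h1 : p.Pi (f 1)) : p.Pi (f 0) := by
  have hN := hA.N0
  have h01 := n01 hA
  have v1 := one_val hA.n2
  have v0 : ((0 : Fin (n + 1)) : ℕ) = 0 := rfl
  have c01 := hc.ord 0 1 (by rw [Fin.lt_def]; omega)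
  have h2 := H155.nef_string0 H hN (H155.toRoot0 (hA.root 0 1 h01)) (hA.root 0 1 h01).int
    p (a := f 0 - f 1) (by
      intro h
      have := hp _ h
      rw [map_neg, map_sub] at this
      omega) h1 (by
      rw [hA.be 0 1 1 h01, if_neg h01.symm, if_pos rfl]
      omega)
  rwa [add_sub_cancel] at h2

theorem q_pi (H : Hyp 𝒜) (hA : AC 𝒜 N n f β E F) {p q : FP 𝒜} {m : ℕ}
    {φ : R →ₐ[ℂ] Polynomial ℂ} (hφ : Curve q p (-f 1) m φ)
    (h : p.Pi (f 0 - f (Fin.last n))) : q.Pi (f 0 - f (Fin.last n)) := by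
  have hN := hA.N0
  have h0L := n0L hA
  have h01 := n01 hA
  have h1L := n1L hA
  have e0 : β 0 (Fin.last n) (f 1) = 0 := by
    rw [hA.be _ _ _ h0L, if_neg h01.symm, if_neg h1L, sub_zero]
  have e1 := (hA.root 0 (Fin.last n) h0L).two
  obtain ⟨k, hk⟩ := curve_wt H hφ (μ := f 0 - f (Fin.last n)) (by
    intro k hk
    have h1 := congrArg (β 0 (Fin.last n)) hk
    rw [e1, map_zsmul, map_neg, e0, neg_zero, smul_zero] at h1
    omega) h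
  have h2 := ac_eq_of_two hA (μ := f 0 - f (Fin.last n) + (k : ℤ) • (-f 1)) ⟨q, hk⟩ h0L (by
    rw [map_add, e1, map_zsmul, map_neg, e0, neg_zero, smul_zero, add_zero])
  rwa [h2] at hk

omit [GradedAlgebra 𝒜] in
/-- The bracket of a root, on functions of degree zero. -/
theorem br_fun {χ : Fin r → ℤ} {b : (Fin r → ℤ) →+ ℤ} {E F : VF R} (hr : Root 𝒜 N χ b E F)
    {m : Fin r → ℤ} {x : FractionRing R} (hx : HK 𝒜 0 m x) :
    E (F x) - F (E x) = (-((b m : ℤ) : ℂ)) • x := by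
  obtain ⟨α, hα⟩ := hr.br
  obtain ⟨a, a', k, k', g, hg, s, hs, hs0, e, hd, hm⟩ := hx
  have h1 := vf_of_mul ⁅E, F⁆ e
  rw [hα a k g hg, hα a' k' s hs, ← e] at h1
  have hs1 : iK s ≠ 0 := iK_ne_zero hs0
  have haa : (a : ℂ) = a' := by
    have : (a : ℤ) = a' := by omega
    exact_mod_cast this
  have h2 : ⁅E, F⁆ x = (-((b m : ℤ) : ℂ)) • x := by
    refine mul_left_cancel₀ hs1 ?_
    rw [h1, hm, map_sub]
    simp only [Algebra.smul_def, map_neg, map_add, map_mul, Int.cast_sub, map_sub]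
    rw [haa]
    ring
  rw [← h2, Derivation.commutator_apply]

/-- The function `X`. -/
theorem exists_X (H : Hyp 𝒜) (hA : AC 𝒜 N n f β E F) (hv : NoVec 𝒜 n f) (hc : Ch2 𝒜 n f c)
    {p q : FP 𝒜} (hp : Pos c p) (hp1 : p.Pi (f 1)) (hq1 : q.Pi (-f 1))
    (hq : ∀ ψ, q.Pi ψ → ψ ≠ -f 1 → 0 < c ψ) :
    ∃ X : FractionRing R, HK 𝒜 0 (f 1) X ∧ Rg p.q X ∧ ¬ Rg q.q X ∧
      (∀ d z, Crd q (-f 1) d z → Rg q.q (iK z * X)) ∧
      ∀ d z, Crd q (-f 1) d z → ∃ v, v ≠ 0 ∧ Val q.q (iK z * X) v := by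
  have hlf := lA_f1 (c := c) hA
  set l := lA N c (β 0 1) (c (f 1)) with hl
  have hlp : ∀ ψ, p.Pi ψ → ψ ≠ f 1 → 0 < l ψ := fun ψ hψ hne =>
    lA_pos hA hv hc ⟨p, hψ⟩ (lt_of_le_of_ne (hp ψ hψ) (hc.ne ψ ⟨p, hψ⟩).symm) hne
  have hqn : ¬ q.Pi (f 1) := by
    have := H170.not_pi_neg H hq1
    rwa [neg_neg] at this
  have hlq : ∀ ψ, q.Pi ψ → ψ ≠ -f 1 → 0 < l ψ := fun ψ hψ hne =>
    lA_pos hA hv hc ⟨q, hψ⟩ (hq ψ hψ hne) (fun h => hqn (h ▸ hψ))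
  obtain ⟨X, h1, h2, h3, h4⟩ := xf H l p q
    ((low_iff H l p).2 fun ψ hψ => by
      by_cases h : ψ = f 1
      · rw [h, hlf]
      · exact (hlp ψ hψ h).le)
    ((low_iff H l q).2 fun ψ hψ => by
      by_cases h : ψ = -f 1
      · rw [h, map_neg, hlf, neg_zero]
      · exact (hlq ψ hψ h).le) hlf hp1 hq1 hlp hlq
    (fun h => hqn (((same_pi h H).2 _).1 hp1))
  refine ⟨X, h1, h2, h3, h4, fun d z hz => ?_⟩
  obtain ⟨v, hvv⟩ := (h4 d z hz).val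
  refine ⟨v, ?_, hvv⟩
  rintro rfl
  have hz0 : iK z ≠ 0 := iK_ne_zero (by
    rintro rfl
    obtain ⟨-, -, t, -, -, h0⟩ := hz
    exact h0 (map_zero t))
  obtain ⟨x', hx', e⟩ := lf2' H q l hlq hz ((HK.ofR (𝒜 := 𝒜) hz.1).mul h1) (h4 d z hz) (by
    rw [map_add, map_add, map_neg, hlf, map_nsmul, nsmul_eq_mul]
    push_cast
    ring) hvv
  rw [mul_left_cancel₀ hz0 e] at h3
  exact h3 hx'

/-- `E X = 0`, `E F X = N X`. -/
theorem X_ef (H : Hyp 𝒜) (hA : AC 𝒜 N n f β E F) (hv : NoVec 𝒜 n f) (hc : Ch2 𝒜 n f c)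
    {p : FP 𝒜} (hp : Pos c p) {X : FractionRing R} (hX : HK 𝒜 0 (f 1) X) (hr : Rg p.q X) :
    E 0 1 (F 0 1 X) = (N : ℂ) • X := by
  have hN := hA.N0
  have h01 := n01 hA
  have hR := hA.root 0 1 h01
  have hlf := lA_f1 (c := c) hA
  have v1 := one_val hA.n2
  have v0 : ((0 : Fin (n + 1)) : ℕ) = 0 := rfl
  have c01 := hc.ord 0 1 (by rw [Fin.lt_def]; omega)
  have cp := hc.pos
  have hl0 := lA_pos hA hv hc (hA.wt 0) (by omega) (ac_f_ne hA h01)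
  set l := lA N c (β 0 1) (c (f 1)) with hl
  have h0 : E 0 1 X = 0 := by
    refine lf1 H p l (fun ψ hψ => ?_) (hR.hvE.app hX) (hR.globE.rgV.rg hr) ?_
    · by_cases h : ψ = f 1
      · rw [h, hlf]
      · exact (lA_pos hA hv hc ⟨p, hψ⟩
          (lt_of_le_of_ne (hp ψ hψ) (hc.ne ψ ⟨p, hψ⟩).symm) h).le
    · rw [map_sub, map_sub, hlf]
      omega
  have h1 := br_fun hR hX
  rw [h0, map_zero, sub_zero, hA.be 0 1 1 h01, if_neg h01.symm, if_pos rfl] at h1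
  rw [h1]
  congr 1
  push_cast
  ring

/-- A function of weight `f 1` is regular at the walls other than `f 1`. -/
theorem reg_wall (H : Hyp 𝒜) (hA : AC 𝒜 N n f β E F) (hv : NoVec 𝒜 n f) (hc : Ch2 𝒜 n f c)
    {y : FP 𝒜} {b : Fin r → ℤ} (hy : y.Pi (-b)) (hcb : 0 < c b)
    (hoth : ∀ ψ, y.Pi ψ → ψ ≠ -b → 0 < c ψ) (hb : b ≠ f 1) {X : FractionRing R}
    (hX : HK 𝒜 0 (f 1) X) (hk : ∀ d z, Crd y (-b) d z → ∃ k : ℕ, Rg y.q ((iK z) ^ k * X)) :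
    Rg y.q X := by
  by_contra hn
  obtain ⟨d, z, hz⟩ := H144.exists_crd H y hy
  obtain ⟨k, hk'⟩ := hk d z hz
  obtain ⟨l, M, h1, h2, h3⟩ := H900.xmon H y hz hX hk' hn
  rw [zero_smul, zero_add] at h3
  exact hb (rel_fun1 H hA hv hc hy hcb hoth h1 h2 h3).2.1

end Vale.Agent.P280.H981
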