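import Vale.Agent.P280.H981.FB1
import Vale.Agent.P280.H399.WallAB
import Vale.Agent.P280.H340.Wall
import Vale.Agent.P280.H495.U2

/-! P280, stage 2, leaf (b): `X w₁ - α X' w₀` is a global field. -/

open DirectSum Vale.Agent.P280.T Vale.Agent.P280.H127 Vale.Agent.P280.N

namespace Vale.Agent.P280.H981

open Vale.Agent.P280.N.H989 Vale.Agent.P280.N2

variable {r : ℕ} {R : Type} [CommRing R] [IsDomain R] [Algebra ℂ R]
  {𝒜 : ℕ × (Fin r → ℤ) → Submodule ℂ R} [GradedAlgebra 𝒜]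
  {N : ℤ} {n : ℕ} {f : Fin (n + 1) → Fin r → ℤ}
  {β : Fin (n + 1) → Fin (n + 1) → ((Fin r → ℤ) →+ ℤ)} {E F : Fin (n + 1) → Fin (n + 1) → VF R}
  {c : (Fin r → ℤ) →+ ℤ}

/-- A function of weight `f 0` is regular at the walls other than `f 1`, `f 0 - f 1`. -/
theorem reg_fun0 (H : Hyp 𝒜) (hA : AC 𝒜 N n f β E F) (hv : NoVec 𝒜 n f) (hc : Ch2 𝒜 n f c)
    {y : FP 𝒜} {b : Fin r → ℤ} (hy : y.Pi (-b)) (hcb : 0 < c b)
    (hoth : ∀ ψ, y.Pi ψ → ψ ≠ -b → 0 < c ψ) (hb : b ≠ f 1) (hb' : b ≠ f 0 - f 1)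
    {X : FractionRing R} (hX : HK 𝒜 0 (f 0) X)
    (hk : ∀ d z, Crd y (-b) d z → ∃ k : ℕ, Rg y.q ((iK z) ^ k * X)) : Rg y.q X := by
  by_contra hn
  obtain ⟨d, z, hz⟩ := H144.exists_crd H y hy
  obtain ⟨k, hk'⟩ := hk d z hz
  obtain ⟨l, M, h1, h2, h3⟩ := H900.xmon H y hz hX hk' hn
  rw [zero_smul, zero_add] at h3
  rcases (rel_fun0 H hA hv hc hy hcb hoth h1 h2 h3).2 with h | h
  · exact hb h.1
  · exact hb' h.1

/-- A field of weight `-f L` is regular at the walls other than `f 1`, `f 0 - f 1`. -/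
theorem reg_field (H : Hyp 𝒜) (hA : AC 𝒜 N n f β E F) (hv : NoVec 𝒜 n f) (hc : Ch2 𝒜 n f c)
    {y : FP 𝒜} {b : Fin r → ℤ} (hy : y.Pi (-b)) (hcb : 0 < c b)
    (hoth : ∀ ψ, y.Pi ψ → ψ ≠ -b → 0 < c ψ) (hb : b ≠ f 1) (hb' : b ≠ f 0 - f 1) {v : VF R}
    (hvv : HV 𝒜 (-f (Fin.last n)) v)
    (hk : ∀ d z, Crd y (-b) d z → ∃ k : ℕ, RgV y.q ((iK z) ^ k • v)) : RgV y.q v := by
  obtain ⟨ρ, g0, g1, hρ, -, hg0, -, hk0, -, -, hg1, e⟩ := H340.rm_wall H hA hv hc hy hcb hoth hvv hk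
  have h1 : g1 = 0 := hg1 fun h => hb h.1
  have h2 := reg_fun0 H hA hv hc hy hcb hoth hb hb' hg0 hk0
  rw [e, h1, zero_smul, add_zero]
  exact hρ.add (RgV.smul h2 (hA.root 0 _ (n0L hA)).globE.rgV)

/-- **Leaf (b).** -/
theorem fieldB (H : Hyp 𝒜) (hA : AC 𝒜 N n f β E F) (hv : NoVec 𝒜 n f) (hc : Ch2 𝒜 n f c)
    {p q : FP 𝒜} (hp : Pos c p) (hq1 : q.Pi (-f 1))
    (hq : ∀ ψ, q.Pi ψ → ψ ≠ -f 1 → 0 < c ψ) (hno : ¬ q.Pi (f 1 - f (Fin.last n)))
    {m : ℕ} {φ : R →ₐ[ℂ] Polynomial ℂ} (hφ : Curve q p (-f 1) m φ) :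
    ∃ D : VF R, Glob D ∧ HV 𝒜 (-f (Fin.last n)) D ∧ NZ φ D ∧ ValV p.q D 0 := by
  have hn := hA.n2
  have hN := hA.N0
  have h01 := n01 hA
  have h1L := n1L hA
  have h0L := n0L hA
  have hR := hA.root 0 1 h01
  have hw1 := hA.root 1 (Fin.last n) h1L
  have hw0 := hA.root 0 (Fin.last n) h0L
  have hf0 : f 0 ≠ 0 := c03_wt_ne_zero H (hA.wt 0)
  have hf1 : f 1 ≠ 0 := c03_wt_ne_zero H (hA.wt 1)
  have hfL : -f (Fin.last n) ≠ 0 := c03_wt_ne_zero H (hA.wtn _)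
  have cL : c (f (Fin.last n)) < 0 := hc.neg _ (by
    have : ((Fin.last n : Fin (n + 1)) : ℕ) = n := rfl
    omega)
  -- the weights at `p` and `q`
  have hp1 : p.Pi (f 1) := by
    have := hφ.ya'
    rwa [neg_neg] at this
  have hp1L : p.Pi (f 1 - f (Fin.last n)) := pi_sub_p H hA hp h1L hp1 cL
  -- the functions
  obtain ⟨X, hX, hXp, hXq, hXz, hXv⟩ := exists_X H hA hv hc hp hp1 hq1 hq
  obtain ⟨X', hX'⟩ : ∃ X', X' = F 0 1 X := ⟨_, rfl⟩
  have hX'w : HK 𝒜 0 (f 0) X' := by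
    rw [hX']
    exact (hR.hvF.app hX).cast rfl (by abel)
  have hX'p : Rg p.q X' := by
    rw [hX']
    exact hR.globF.rgV.rg hXp
  have hX0 : X ≠ 0 := by
    rintro rfl
    exact hXq Rg.zero
  have hX'0 : X' ≠ 0 := by
    intro h0
    have h1 := X_ef H hA hv hc hp hX hXp
    rw [← hX', h0, map_zero] at h1
    have hNC : (N : ℂ) ≠ 0 := by exact_mod_cast hN.ne'
    exact (smul_ne_zero hNC hX0) h1.symm
  -- regular at all sources
  have hsrc : ∀ y0 : FP 𝒜, Pos c y0 → SamePoint 𝒜 p.q y0.q := fun y0 hy0 =>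
    pos_unique H c hc.ne hp hy0
  have hXs : ∀ y0 : FP 𝒜, Pos c y0 → Rg y0.q X := fun y0 hy0 =>
    A04.same_rg H (hsrc y0 hy0) hX hXp
  have hX's : ∀ y0 : FP 𝒜, Pos c y0 → Rg y0.q X' := fun y0 hy0 =>
    A04.same_rg H (hsrc y0 hy0) hX'w hX'p
  -- regular at the walls `f 0 - f 1`
  have c01 : 0 < c (f 0 - f 1) := by
    have := H399.c01 hA hv hc
    rw [map_sub]
    omega
  have hXB : ∀ y : FP 𝒜, y.Pi (-(f 0 - f 1)) → (∀ ψ, y.Pi ψ → ψ ≠ -(f 0 - f 1) → 0 < c ψ) →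
      Rg y.q X := fun y hy hoth =>
    reg_wall H hA hv hc hy c01 hoth (f1_ne hA).symm hX
      (H399.wallB_fun hA hv hc H hy hoth hX hXs)
  have hX'B : ∀ y : FP 𝒜, y.Pi (-(f 0 - f 1)) → (∀ ψ, y.Pi ψ → ψ ≠ -(f 0 - f 1) → 0 < c ψ) →
      Rg y.q X' := fun y hy hoth => by
    rw [hX']
    exact hR.globF.rgV.rg (hXB y hy hoth)
  -- `X'` is not regular at `q`
  have hX'q : ¬ Rg q.q X' := by
    obtain ⟨y, b, hy, hcb, hoth, hnr, hk⟩ := H399.lowest_fun H c hc.ne hf0 hX'w hX'0 hX's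
    by_cases hb : b = f 1
    · subst hb
      intro h
      exact hnr (A04.same_rg H (H399.uniqA hA hv hc H hq1 hq hy hoth) hX'w h)
    · by_cases hb' : b = f 0 - f 1
      · subst hb'
        exact absurd (hX'B y hy hoth) hnr
      · exact absurd (reg_fun0 H hA hv hc hy hcb hoth hb hb' hX'w hk) hnr
  -- the poles at `q`
  obtain ⟨d, z, hz⟩ := H144.exists_crd H q hq1
  have hzX := hXz d z hz
  have hX'z : Rg q.q ((iK z) ^ 2 * X') := by
    have h1 := hR.globF.rgV.rg hzX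
    rw [Derivation.leibniz, smul_eq_mul, smul_eq_mul, ← hX'] at h1
    have h2 : (iK z) ^ 2 * X' = iK z * (iK z * X' + X * F 0 1 (iK z)) -
        F 0 1 (iK z) * (iK z * X) := by ring
    rw [h2]
    exact ((Rg.iK z).mul h1).sub ((hR.globF.rgV z).mul hzX)
  -- `X w₁` at `q`
  have hv1 : HV 𝒜 (-f (Fin.last n)) (X • E 1 (Fin.last n)) :=
    (HV.smul hX hw1.hvE).cast (by abel)
  obtain ⟨ρ, g0, g1, hρ, -, hg0, -, hk0, -, -, hg1, e⟩ := H340.rm_wall H hA hv hc hq1 hc.pos hq hv1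
    (fun d z hz => ⟨1, by
      rw [pow_one, smul_smul]
      exact RgV.smul (hXz d z hz) hw1.globE.rgV⟩)
  have hg1' : g1 = 0 := hg1 fun h => hno h.2
  obtain ⟨k, hk⟩ := hk0 d z hz
  obtain ⟨α, hα⟩ := H448.polar_one_fun H q c hq hz [f 0 - f 1] (by
    intro l L h1 h2 h3
    rw [zero_smul, zero_add] at h3
    have h4 := rel_fun0 H hA hv hc hq1 hc.pos hq h1 h2 h3
    refine ⟨h4.1, ?_⟩
    rcases h4.2 with h5 | h5
    · rw [h5.2]
    · exact absurd h5.1 (f1_ne hA)) hg0 hX'w hk hX'z hX'q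
  -- the field
  obtain ⟨D, hDe⟩ : ∃ D, D = X • E 1 (Fin.last n) - (α • X') • E 0 (Fin.last n) := ⟨_, rfl⟩
  have hDv : HV 𝒜 (-f (Fin.last n)) D := by
    rw [hDe]
    exact hv1.sub ((HV.smul (hX'w.smul α) hw0.hvE).cast (by abel))
  have hDr : ∀ y : FP 𝒜, Rg y.q X → Rg y.q X' → RgV y.q D := fun y h1 h2 => by
    rw [hDe]
    exact (RgV.smul h1 hw1.globE.rgV).sub (RgV.smul (h2.smul α) hw0.globE.rgV)
  have hDq : RgV q.q D := by
    have h1 : D = ρ + (g0 - α • X') • E 0 (Fin.last n) := by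
      rw [hDe, e, hg1', zero_smul, add_zero]
      refine Derivation.ext fun x => ?_
      simp only [Derivation.sub_apply, Derivation.add_apply, Derivation.smul_apply, smul_eq_mul]
      ring
    rw [h1]
    exact hρ.add (RgV.smul hα hw0.globE.rgV)
  have hDg : Glob D := by
    by_contra hnot
    obtain ⟨y, b, hy, hcb, hoth, hnr, hk⟩ := H399.lowest_field H c hc.ne hfL hDv
      (fun y0 hy0 => hDr y0 (hXs y0 hy0) (hX's y0 hy0)) hnot
    by_cases hb : b = f 1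
    · subst hb
      exact hnr (A04.same_rgV H (H399.uniqA hA hv hc H hq1 hq hy hoth) hDv hDq)
    · by_cases hb' : b = f 0 - f 1
      · subst hb'
        exact hnr (hDr y (hXB y hy hoth) (hX'B y hy hoth))
      · exact hnr (reg_field H hA hv hc hy hcb hoth hb hb' hDv hk)
  refine ⟨D, hDg, hDv, ?_, ?_⟩
  · -- not zero along the curve
    obtain ⟨h, a, ha, hφa⟩ := H495.ne_of_end hφ hw1.globE hw1.hvE (Or.inr (hw1.atE p hp1L))
    obtain ⟨a', ha'⟩ := hw0.globE h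
    obtain ⟨b, hb⟩ := hDg h
    obtain ⟨k1, k1', s1, x1, hs1, hx1, hk1, hq1s, e1⟩ := hX.exists_den H.hX p.nv p.fix hXp
    obtain ⟨k2, k2', s2, x2, hs2, hx2, hk2, hq2s, e2⟩ := hX'w.exists_den H.hX p.nv p.fix hX'p
    have hφs : ∀ (k : ℕ) (s : R), s ∈ 𝒜 (k, k • p.ν) → p.q s = 1 → φ s ≠ 0 := by
      intro k s hs hs' h0
      have h1 := hφ.ev' k _ s hs
      rw [h0, Polynomial.coeff_zero, hs'] at h1
      exact zero_ne_one h1
    have hφ1 := hφs _ _ hs1 hq1s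
    have hφ2 := hφs _ _ hs2 hq2s
    have hφx2 : φ x2 = 0 := by
      by_contra hne
      obtain ⟨i, -, hi, -⟩ := hφ.hom _ _ x2 hx2 hne
      obtain rfl : k2' = k2 := by omega
      have b1 : β 0 (Fin.last n) (f 1) = 0 := by
        rw [hA.be _ _ _ h0L, if_neg h01.symm, if_neg h1L, sub_zero]
      have b0 : β 0 (Fin.last n) (f 0) = N := by
        rw [hA.be _ _ _ h0L, if_pos rfl, if_neg h0L, sub_zero]
      have h1 := congrArg (β 0 (Fin.last n)) hi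
      rw [hφ.nu] at h1
      simp only [map_add, map_nsmul, map_neg, b0, b1, neg_zero, smul_zero, add_zero] at h1
      omega
    have hφx1 : φ x1 ≠ 0 := by
      intro h0
      obtain ⟨v, hv0, x3, s3, hs3, e3, hv3⟩ := hXv d z hz
      have h1 : s3 * z * x1 = s1 * x3 := by
        apply iK_inj
        rw [iK_mul, iK_mul, iK_mul, ← e1, ← e3]
        ring
      have h2 := congrArg φ h1
      rw [map_mul, h0, mul_zero, map_mul] at h2
      have h3 : φ x3 = 0 := (mul_eq_zero.1 h2.symm).resolve_left hφ1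
      have h4 := hφ.ev x3
      rw [h3, Polynomial.eval_zero, hv3] at h4
      exact (mul_ne_zero hs3 hv0) h4.symm
    have h1 : s1 * s2 * b = s2 * x1 * a - α • (s1 * x2 * a') := by
      apply iK_inj
      rw [iK_sub, iK_smul, iK_mul, iK_mul, iK_mul, iK_mul, iK_mul, iK_mul, ← hb, hDe,
        Derivation.sub_apply, Derivation.smul_apply, Derivation.smul_apply, ha, ha', ← e1, ← e2]
      simp only [smul_eq_mul, Algebra.smul_def]
      ring
    have h2 := congrArg φ h1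
    rw [map_sub, map_smul, map_mul, map_mul, map_mul, map_mul, map_mul, map_mul, hφx2, mul_zero,
      zero_mul, smul_zero, sub_zero] at h2
    refine ⟨h, b, hb, fun h0 => ?_⟩
    rw [h0, mul_zero] at h2
    exact (mul_ne_zero (mul_ne_zero hφ2 hφx1) hφa) h2.symm
  · -- the value at `p`
    have g1 := val_zero p hX hXp (by rwa [zero_smul])
    have g2 := val_zero p hX'w hX'p (by rwa [zero_smul])
    obtain ⟨t1, ht1⟩ := (hw1.globE.rgV (q := p.q)).val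
    obtain ⟨t0, ht0⟩ := (hw0.globE.rgV (q := p.q)).val
    have h1 := (ValV.smul g1 ht1).sub (ValV.smul (g2.smul α) ht0)
    rw [mul_zero, zero_smul, zero_smul, sub_zero, ← hDe] at h1
    exact h1

end Vale.Agent.P280.H981
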